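import Vale.Agent.P325.R4.H480.Num

/-!
# The soundness of the reduction with explicit parameters
-/

namespace Vale.Agent.P325.K2.Q

open Finset Vale.Agent.Lib.PCP Vale.Agent.P342

/-- The soundness with explicit parameters. -/
theorem soundQ {A1 A3 : ℝ} (hA1 : 1 ≤ A1) (hA3 : 2 ≤ A3)
    (hS : ∀ E ε : ℝ, 1 ≤ E → 0 < ε → ε ≤ 1 → ∀ τ : ℝ, 0 < τ →
      τ ≤ Real.exp (-(A1 * (E / ε) ^ 2)) → StructAt E ε τ)
    (hL : LipThm) (hM : MonoThm) (hSum : SumThm) (hP : PruneThm)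
    (hAC : ACThm) (hPA : PairQ A3) (hWin : WinThm) (hSig : SigThm) (hDec : DecodeThm) :
    ∃ K0 : ℝ, A1 + A3 + 3 ≤ K0 ∧ ∀ C : ℝ, 1 ≤ C → ∀ (n : ℕ) [NeZero n],
      Real.exp (K0 * C ^ 2) ≤ n → ∀ (r : ℕ) [NeZero r], (r : ℝ) ≤ Real.exp (Zq n) →
      ∀ G : PG ℕ ℕ (Fin r) (Fin r), G ≠ [] → G.Sound (Real.exp (-(4 * Yq n))) →
      ∀ A : Asg n (Nq n) r, Odd' A → C * nu n (Lq n) < cost (Lq n) n G A := by
  obtain ⟨C0, hC0, hac⟩ := hAC
  refine ⟨Kq A1 A3 C0, by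
    have : 0 ≤ 3072 * (C0 + 1) + 256 * A1 * (C0 + 1) ^ 2 := by positivity
    unfold Kq
    linarith, ?_⟩
  intro C1 hC11 n hnz hnC r hrz hr G hG hGs A hA
  have hC1p : 0 < C1 := by linarith
  obtain ⟨hn3, hA1n, hA3n⟩ := num_three hA1 hA3 hC0 hC11 hnC
  have hn48 := num_slots hA1 hA3 hC0 hC11 hnC
  have hnr : (3 : ℝ) ≤ n := by exact_mod_cast hn3
  set E1 : ℝ := C1 * C0 + 1 with hE1
  have hE11 : 1 ≤ E1 := by
    have : 0 ≤ C1 * C0 := by positivity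
    linarith
  have hE1p : 0 < E1 := by linarith
  set τ : ℝ := Real.exp (-(A1 * (8 * E1) ^ 2)) with hτdef
  have hτ : 0 < τ := Real.exp_pos _
  have hτ1 : τ ≤ 1 := by
    rw [hτdef]
    refine Real.exp_le_one_iff.2 ?_
    have : 0 ≤ A1 * (8 * E1) ^ 2 := by positivity
    linarith
  have hMe := num_M A1 E1
  rw [← hτdef] at hMe
  rw [← hMe] at hn48
  have hSτ' : StructAt (4 * E1) (1 / 2) τ := by
    refine hS _ _ (by linarith) (by norm_num) (by norm_num) τ hτ (le_of_eq ?_)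
    rw [hτdef]
    congr 3
    ring
  have hsqn : Real.sqrt n ≤ n := by
    rw [Real.sqrt_le_left (by positivity)]
    nlinarith
  have hMp : 0 < 16 / τ * (2 / τ) := by positivity
  have hME : 8 * (16 / τ * (2 / τ)) * E1 ≤ n := by
    have : 0 ≤ 40 * (16 / τ * (2 / τ)) * E1 := by positivity
    linarith
  have hτn2 : 2 / τ ≤ n := by
    refine le_trans ?_ hME
    rw [div_le_iff₀ hτ]
    have h2 : 8 * (16 / τ * (2 / τ)) * E1 * τ = 256 * E1 / τ := by field_simp; norm_num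
    rw [h2, le_div_iff₀ hτ]
    nlinarith
  have hEn := num_energy hn3 hA1n hE1p hτ hME
  set t : ℝ := 1 / (4 * n : ℝ) ^ (2 * n) with ht
  have htp : 0 < t := by positivity
  have ht1 : t * (4 * n) ^ (2 * n) ≤ 1 := by
    rw [ht, one_div, inv_mul_cancel₀ (by positivity)]
  have hN := num_legs hn3
  rw [← ht] at hN
  have ht21 : t ^ 2 ≤ 1 := by
    rw [ht, num_t2, div_le_one (by positivity)]
    exact one_le_pow₀ (by linarith)
  have hEm1 : 1 ≤ 64 * E1 / (t ^ 2 * τ) := by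
    rw [le_div_iff₀ (by positivity)]
    have : t ^ 2 * τ ≤ 1 := mul_le_one₀ ht21 hτ.le hτ1
    linarith
  have hSτm' : StructAt (64 * E1 / (t ^ 2 * τ)) (τ / 4) (Real.exp (-(Yq n : ℝ))) := by
    refine hS _ _ hEm1 (by positivity) (by linarith) _ (Real.exp_pos _) ?_
    exact Real.exp_le_exp.2 (neg_le_neg hEn)
  obtain ⟨hJ1, hJ2, hJη⟩ := num_J hn3 hτ hτn2
  rw [← ht] at hJη
  have hLe : Even (Lq n) := even_two_mul _
  have hL2 : 2 ≤ Lq n := by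
    unfold Lq
    have : 0 < ⌈Real.exp (8 * Uq n)⌉₊ := Nat.ceil_pos.2 (Real.exp_pos _)
    omega
  have hsq : (0 : ℝ) < Real.sqrt n := Real.sqrt_pos.2 (by linarith)
  have hsq1 : (1 : ℝ) ≤ Real.sqrt n := by
    rw [Real.one_le_sqrt]
    linarith
  have hL0 := fun π c => pairAvgQ hPA n (Nq n) r hn3 (1 / Real.sqrt n) (by positivity)
    ((div_le_one hsq).2 hsq1) (Lq n) (num_L2 hn3 hA3n hr) hLe π c
  have hW : 32 * (16 / τ * (2 / τ)) * C1 * C0 ≤ n := by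
    have h1 : 32 * (16 / τ * (2 / τ)) * C1 * C0 ≤ 48 * (16 / τ * (2 / τ)) * E1 := by
      rw [hE1]
      have h2 : 0 ≤ (16 / τ * (2 / τ)) * C1 * C0 := by positivity
      nlinarith
    exact h1.trans (hn48.trans hsqn)
  exact sound_core (C0 := C0) (E1 := E1) (τ := τ) (τ' := Real.exp (-(Yq n : ℝ)))
    (M := 16 / τ * (2 / τ)) (t := t) (Em := 64 * E1 / (t ^ 2 * τ))
    (J := ⌈Real.exp (Yq n)⌉₊) (W := n) hL hM hSum hP hWin hSig hDec
    (hac n (Lq n) hn3 hL2 hLe) hC0 hC1p hE1 hτ hSτ' rfl hn3 hn48 htp ht1 hN rfl (Real.exp_pos _)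
    hSτm' hJ1 hJ2 (Real.exp_pos _) hJη (by linarith) hW (num_L1 hn3 hτ hτn2) hL0 G hG hGs A hA

end Vale.Agent.P325.K2.Q
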