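import Vale.Agent.P325.H811.K2.SrcU

/-!
# Gap label cover with an explicit bound for the alphabet
-/

namespace Vale.Agent.P325.K2.Q

open Vale.Agent.Lib.PCP Vale.Agent.Lib.PolyTime Vale.Agent.P333 Vale.Agent.P333.NP
open Vale.Agent.P342.Red Vale.Agent.P342

/-- Powers of a game with a trivial question have small value. -/
theorem pow_sound {γ η : ℝ} (hγ : 0 < γ) (hγ1 : γ ≤ 1) (hη : 0 < η) (k : ℕ)
    (hk : (1 - γ ^ 2 / 24) ^ k ≤ η ^ 2) (r : ℕ) [NeZero r] (G : PG ℕ ℕ (Fin r) (Fin r))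
    (hne : G ≠ []) (hG : G.Sound (1 - γ)) : (powG (triv G) k).Sound η := by
  have h0 : (0 : ℝ) ≤ 1 - γ ^ 2 / 24 := by nlinarith
  have h2 := (powG_nrm (triv G) h0 (triv_nrm G hγ hγ1 hne hG) k).sound
  intro a b
  refine (h2 a b).trans (mul_le_mul_of_nonneg_right ?_ (Nat.cast_nonneg _))
  rw [Real.sqrt_le_left hη.le]
  exact hk

/-- The gap problem for projection games with soundness `exp (-y)` and an alphabet of size at most
`exp (A * y)`. -/
theorem np_lc_q : ∃ A : ℝ, 1 ≤ A ∧ ∀ y : ℝ, 1 ≤ y →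
    ∃ (r : ℕ) (_ : NeZero r), (r : ℝ) ≤ Real.exp (A * y) ∧ ∀ L ∈ classNP,
      ∃ (Φ : List Bool → PG ℕ ℕ (Fin r) (Fin r)) (g : List Bool → List Bool),
        FP ∅ g ∧ (∀ x, g x = enc (Φ x)) ∧
        ∀ x, Φ x ≠ [] ∧ (x ∈ L → (Φ x).Perfect) ∧ (x ∉ L → (Φ x).Sound (Real.exp (-y))) := by
  obtain ⟨S, _, _, s0, s1, γ, P, hs, hγ, hγ1, hPne, hPs, hPg, hP⟩ := pcp
  have hne : Nonempty (S × S) := ⟨(s0, s0)⟩
  set r := Fintype.card (S × S) with hr
  have hr0 : NeZero r := ⟨Fintype.card_ne_zero⟩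
  have hr1 : (1 : ℝ) ≤ r := by exact_mod_cast Nat.one_le_iff_ne_zero.2 hr0.out
  let e : S × S ≃ Fin r := Fintype.equivFin (S × S)
  have hg2 : 0 < γ / 2 := by positivity
  set x0 : ℝ := (γ / 2) ^ 2 / 24 with hx0
  have hx0p : 0 < x0 := by positivity
  have hx01 : x0 ≤ 1 := by rw [hx0]; nlinarith
  refine ⟨(2 / x0 + 1) * r + 1, by
    have : 0 ≤ (2 / x0 + 1) * (r : ℝ) := by positivity
    linarith, fun y hy => ?_⟩
  set k : ℕ := ⌈2 / x0 * y⌉₊ with hk
  have hk1 : 2 / x0 * y ≤ k := Nat.le_ceil _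
  have hk2 : (k : ℝ) ≤ 2 / x0 * y + 1 := (Nat.ceil_lt_add_one (by positivity)).le
  have hk3 : (1 - (γ / 2) ^ 2 / 24) ^ k ≤ Real.exp (-y) ^ 2 := by
    rw [← hx0]
    have h1 : 1 - x0 ≤ Real.exp (-x0) := by
      have := Real.add_one_le_exp (-x0)
      linarith
    calc (1 - x0) ^ k ≤ Real.exp (-x0) ^ k := pow_le_pow_left₀ (by linarith) h1 k
      _ = Real.exp (k * (-x0)) := by rw [← Real.exp_nat_mul]
      _ ≤ Real.exp ((2 : ℕ) * (-y)) := by
          refine Real.exp_le_exp.2 ?_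
          have h2 : 2 * y ≤ k * x0 := by
            have h3 := mul_le_mul_of_nonneg_right hk1 hx0p.le
            have h4 : 2 / x0 * y * x0 = 2 * y := by field_simp
            linarith
          push_cast
          linarith
      _ = Real.exp (-y) ^ 2 := by rw [← Real.exp_nat_mul]
  have hPT : PT ∅ (fun φ : CNF3 => powG (triv (lcN e s0 s1 (P φ))) k) := by
    have h1 : PT ∅ (fun φ : CNF3 => lcN e s0 s1 (P φ)) := PT_lc s0 s1 (conv e s0) hP
    exact PT_powG (PT_triv h1) k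
  obtain ⟨g, hg, hg'⟩ := hPT
  have hrk : NeZero (r ^ k) := ⟨(pow_pos (Nat.pos_of_ne_zero hr0.out) k).ne'⟩
  refine ⟨r ^ k, hrk, ?_, fun L hL => ?_⟩
  · push_cast
    have h1 : (r : ℝ) ≤ Real.exp r := by
      have := Real.add_one_le_exp (r : ℝ)
      linarith
    calc (r : ℝ) ^ k ≤ Real.exp r ^ k := pow_le_pow_left₀ (by positivity) h1 k
      _ = Real.exp (k * r) := by rw [← Real.exp_nat_mul]
      _ ≤ _ := Real.exp_le_exp.2 ?_
    have h2 : (k : ℝ) ≤ (2 / x0 + 1) * y := by linarith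
    calc (k : ℝ) * r ≤ (2 / x0 + 1) * y * r := mul_le_mul_of_nonneg_right h2 (by positivity)
      _ ≤ ((2 / x0 + 1) * r + 1) * y := by nlinarith
  obtain ⟨V, p, ⟨MV⟩, hV⟩ := hL
  obtain ⟨W, hW, hW'⟩ := exists_FP_of_tm2 (A := ∅) MV
  have hW2 : ∀ x y, W (pr x y) = [V (x, y)] := by
    intro x y
    rw [← hW' (x, y), pairW_eq]
  obtain ⟨F, hF, hF'⟩ := CL.cook_levin (L := L) hW p fun x => by
    rw [hV x]
    refine exists_congr fun y => and_congr_right fun _ => ?_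
    rw [hW2]
    simp
  refine ⟨fun x => powG (triv (lcN e s0 s1 (P (F x)))) k, fun x => g (enc (F x)),
    hg.comp hF, fun x => hg' (F x), fun x => ⟨?_, ?_, ?_⟩⟩
  · exact powG_ne _ (triv_ne _ (lcN_ne e (hPne _))) k
  · intro hx
    exact powG_perfect _ (triv_perfect _ (lcN_perfect e (hPs _ ((hF' x).1 hx)))) k
  · intro hx
    exact pow_sound hg2 (by linarith) (Real.exp_pos _) k hk3 r _ (lcN_ne e (hPne _))
      (lcN_sound e hs (hPg _ fun h => hx ((hF' x).2 h)))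

end Vale.Agent.P325.K2.Q
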