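import Vale.Agent.P325.H811.K2.Final
import Vale.Agent.P325.R4.H480.Src
import Vale.Agent.P325.R4.H480.Sound

/-!
# The reduction with explicit parameters
-/

namespace Vale.Agent.P325.K2.Q

open Finset Vale.Agent.Lib.PCP Vale.Agent.Lib.PolyTime Vale.Agent.P342 Vale.Agent.P325.K2
open Vale.Agent.P333 Vale.Agent.P333.NP Vale.Agent.P325.H811

/-- The reduction for given parameters. -/
theorem red_core (hCo : CompleteThm) (hC : CountThm) {C η : ℝ} (hC1 : 1 ≤ C)
    {n N r L W : ℕ} [NeZero n] [NeZero N] [NeZero r] [NeZero L]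
    (hnp : ∀ Lg ∈ classNP, ∃ (Φ : List Bool → PG ℕ ℕ (Fin r) (Fin r)) (g : List Bool → List Bool),
        FP ∅ g ∧ (∀ x, g x = enc (Φ x)) ∧
        ∀ x, Φ x ≠ [] ∧ (x ∈ Lg → (Φ x).Perfect) ∧ (x ∉ Lg → (Φ x).Sound η))
    (hs : ∀ G : PG ℕ ℕ (Fin r) (Fin r), G ≠ [] → G.Sound η →
      ∀ A : Asg n N r, Odd' A → (C + 1) * nu n L < cost L W G A)
    (hν0 : 0 < nu n L) {ε : ℝ} (hε : 0 < ε) (h1 : ε * C ≤ nu n L)
    (h2 : ε * (MM n N r W 0 + 1) ≤ nu n L) : UGHardK 2 (1 - ε) (1 - C * ε) := by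
  have hC10 : 0 < C := by linarith
  set ν := nu n L with hν
  have hM1 : ν / ε ≤ ⌈ν / ε⌉₊ := Nat.le_ceil _
  have hM2 : (⌈ν / ε⌉₊ : ℝ) < ν / ε + 1 := Nat.ceil_lt_add_one (by positivity)
  have hM0 : MM n N r W 0 ≤ ⌈ν / ε⌉₊ := by
    have h3 : (MM n N r W 0 : ℝ) ≤ ν / ε := by
      rw [le_div_iff₀ hε]
      nlinarith
    exact_mod_cast h3.trans hM1
  obtain ⟨P, hP⟩ : ∃ P, MM n N r W P = ⌈ν / ε⌉₊ := by
    refine ⟨⌈ν / ε⌉₊ - MM n N r W 0, ?_⟩
    have h3 : ∀ P, MM n N r W P = MM n N r W 0 + P := by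
      intro P
      unfold MM
      omega
    rw [h3]
    omega
  have hMp : (0 : ℝ) < MM n N r W P := by exact_mod_cast MM_pos
  rw [← hP] at hM1 hM2
  rw [div_le_iff₀ hε] at hM1
  have hM3 : (MM n N r W P : ℝ) * ε ≤ ν + ε := by
    have h3 := mul_le_mul_of_nonneg_right hM2.le hε.le
    have h4 : (ν / ε + 1) * ε = ν + ε := by field_simp
    linarith
  intro Lg hLg
  obtain ⟨Φ, g, hg, hg', hΦ⟩ := hnp Lg hLg
  refine ⟨fun x => ins n N L W P (Φ x) (hΦ x).1, ?_, ?_, ?_, ?_⟩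
  · -- the machine
    have h3 : PT ∅ (fun G : PG ℕ ℕ (Fin r) (Fin r) =>
        Raw.mk (word (H111.nums (consL n N L W P G)))) :=
      H111.PT_word (H111.PT_nums (PT_consL PT.id))
    obtain ⟨F, hF, hF'⟩ := h3
    refine tm2_of_polyTimeFun _ _ _ (fun x => F (g x)) (polyTimeFun_iff.2 (hF.comp hg))
      fun x => ?_
    rw [hg', ins_code]
    exact hF' _
  · -- the size
    obtain ⟨T, hT, -, hgT⟩ := hg.length_le
    obtain ⟨c, hc⟩ := hT
    have hlen : ∀ x, (Φ x).length ≤ pb c x.length := fun x => by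
      have h3 := length_le_esize (Φ x)
      have h4 := hgT x
      rw [hg'] at h4
      exact h3.trans (h4.trans (hc _))
    set k := Fintype.card (Win n N) with hk
    refine ⟨3 * ((2 ^ c) ^ k * (k * (Fintype.card (Fin n → Fin L) *
      Fintype.card (Sd n N r L))) * MM n N r W P), c * k, fun x => ?_⟩
    rw [ins_size, Vale.Agent.P325.H811.ZZ, Fintype.card_fun, Fintype.card_fin, ← hk]
    have h3 : (Φ x).length ^ k ≤ (2 ^ c) ^ k * (x.length + 1) ^ (c * k) := by
      rw [pow_mul, ← mul_pow, ← mul_pow]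
      exact Nat.pow_le_pow_left ((hlen x).trans (Nat.pow_le_pow_left (by omega) c)) k
    calc 3 * ((Φ x).length ^ k * (k * (Fintype.card (Fin n → Fin L) *
          Fintype.card (Sd n N r L))) * MM n N r W P)
        ≤ 3 * ((2 ^ c) ^ k * (x.length + 1) ^ (c * k) * (k * (Fintype.card (Fin n → Fin L) *
          Fintype.card (Sd n N r L))) * MM n N r W P) := by gcongr
      _ = _ := by ring
  · -- completeness
    intro x hx
    obtain ⟨A, hA, hcost⟩ := hCo n N r L W (Φ x) (hΦ x).1 ((hΦ x).2.1 hx)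
    refine le_trans ?_ (ins_ge hC (Φ x) (hΦ x).1 A hA)
    rw [hcost]
    have h3 : nu n L / MM n N r W P ≤ ε := by
      rw [div_le_iff₀ hMp]
      linarith
    linarith
  · -- soundness
    intro x hx
    refine (ins_le hC (Φ x) (hΦ x).1 ((C + 1) * ν) fun A hA =>
      (hs (Φ x) (hΦ x).1 ((hΦ x).2.2 hx) A hA).le).trans ?_
    have h3 : C * ε ≤ (C + 1) * ν / MM n N r W P := by
      rw [le_div_iff₀ hMp]
      have h5 : C * ε * MM n N r W P ≤ C * (ν + ε) := by
        calc C * ε * MM n N r W P = C * (MM n N r W P * ε) := by ring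
          _ ≤ _ := mul_le_mul_of_nonneg_left hM3 hC10.le
      nlinarith
    linarith

/-- The probability of a small sum is at least the probability of the weight `0`. -/
theorem nu_ge (n L : ℕ) [NeZero L] : 1 / (L : ℝ) ^ n ≤ nu n L := by
  classical
  unfold nu
  rw [Pr_prod]
  have h1 : (1 : ℝ) / (L : ℝ) ^ n = Pr fun a : Fin n → Fin L => a = 0 := (pr_zero).symm
  rw [h1, Pr]
  refine Ex_mono fun a => ?_
  by_cases ha : a = 0
  · subst ha
    have h2 : (Pr fun y : Fin n × Unit × Fin (L * L) → Bool =>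
        near (0 : Fin n → Fin L) y fun _ => ()) = 1 := by
      have h3 : ∀ y : Fin n × Unit × Fin (L * L) → Bool,
          near (0 : Fin n → Fin L) y fun _ => () := by
        intro y
        unfold near Ssum
        simp
      rw [Pr]
      simp only [h3, if_true]
      exact Ex_const 1
    rw [h2]
    split_ifs <;> norm_num
  · rw [if_neg ha]
    exact Pr_nonneg _

end Vale.Agent.P325.K2.Q
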