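import Vale.Agent.P325.H111.K2.Final
import Vale.Agent.P325.R4.H480.Red

/-!
# Hardness within a factor that tends to infinity, with an explicit rate
-/

namespace Vale.Agent.P325.K2.Q

open Finset Vale.Agent.Lib.PCP Vale.Agent.Lib.PolyTime Vale.Agent.P342 Vale.Agent.P325.K2
open Vale.Agent.P333 Vale.Agent.P333.NP Vale.Agent.P325.H811

theorem le_U {n : ℕ} (hn : 3 ≤ n) : (n : ℝ) ≤ Uq n ∧ (n : ℝ) * (Nq n * n) + 1 ≤ Uq n := by
  have hnr : (3 : ℝ) ≤ n := by exact_mod_cast hn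
  have h4n1 : (1 : ℝ) ≤ 4 * n := by linarith
  have hNr : ((Nq n : ℕ) : ℝ) = (4 * n : ℝ) ^ (4 * n + 1) := by
    unfold Nq
    push_cast
    rfl
  rw [Uq_cast, hNr]
  constructor
  · calc (n : ℝ) ≤ 4 * n := by linarith
      _ = (4 * n : ℝ) ^ 1 := (pow_one _).symm
      _ ≤ (4 * n : ℝ) ^ (4 * n ^ 2 + 9 * n + 4) := pow_le_pow_right₀ h4n1 (by omega)
  · have h1 : (4 * n : ℝ) ^ (4 * n + 3) ≤ (4 * n : ℝ) ^ (4 * n ^ 2 + 9 * n + 4) :=
      pow_le_pow_right₀ h4n1 (by nlinarith)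
    have h2 : (4 * n : ℝ) ^ (4 * n + 3) = (4 * n : ℝ) ^ (4 * n + 1) * (4 * n) * (4 * n) := by
      rw [pow_succ, pow_succ]
    have h3 : (1 : ℝ) ≤ (4 * n : ℝ) ^ (4 * n + 1) := one_le_pow₀ h4n1
    have h4 : (9 : ℝ) ≤ n * n := by nlinarith
    nlinarith

theorem Lq_le (n : ℕ) : (Lq n : ℝ) ≤ Real.exp (8 * Uq n + 2) := by
  have h0 : (0 : ℝ) ≤ 8 * Uq n := by positivity
  have h1 : ((⌈Real.exp (8 * Uq n)⌉₊ : ℕ) : ℝ) < Real.exp (8 * Uq n) + 1 :=
    Nat.ceil_lt_add_one (Real.exp_pos _).le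
  have h2 : 1 ≤ Real.exp (8 * (Uq n : ℝ)) := Real.one_le_exp h0
  have h3 : (4 : ℝ) ≤ Real.exp 2 := by
    have h4 := Real.exp_one_gt_d9
    have h5 : Real.exp 2 = Real.exp 1 * Real.exp 1 := by rw [← Real.exp_add]; norm_num
    rw [h5]
    nlinarith
  unfold Lq
  push_cast
  rw [Real.exp_add]
  nlinarith

/-- The parameters fit for `ε = exp (-s)` if `s` is large enough. -/
theorem fits {n r : ℕ} (hn : 3 ≤ n) (hr : (r : ℝ) ≤ Real.exp (Zq n)) {s : ℝ}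
    (hs : 16 * (n : ℝ) ^ 2 * Uq n ≤ s) {D : ℝ} (hD : D ≤ n) :
    Real.exp (-s) * D ≤ nu n (Lq n) ∧
    Real.exp (-s) * (MM n (Nq n) r n 0 + 1) ≤ nu n (Lq n) := by
  obtain ⟨hU1, hU2⟩ := le_U hn
  have hnr : (3 : ℝ) ≤ n := by exact_mod_cast hn
  have hV := card_lab_le (n := n) hr
  have hM : (MM n (Nq n) r n 0 : ℝ) + 1 ≤ Real.exp (Uq n + 2) := by
    unfold MM
    push_cast
    have h1 := Real.add_one_le_exp (Uq n : ℝ)
    have h2 : (3 : ℝ) ≤ Real.exp 2 := by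
      have := Real.add_one_le_exp (2 : ℝ)
      linarith
    have h3 : (n : ℝ) * (Nq n * n) + 1 ≤ Real.exp (Uq n) := by linarith
    rw [Real.exp_add]
    have h4 : 0 < Real.exp (Uq n : ℝ) := Real.exp_pos _
    nlinarith
  have hD' : D ≤ Real.exp (Uq n + 2) := by
    have h1 := Real.add_one_le_exp ((Uq n : ℝ) + 2)
    linarith
  have hL0 : (0 : ℝ) < Lq n := by exact_mod_cast Lq_pos n
  have hν : Real.exp (-(n * (8 * Uq n + 2))) ≤ nu n (Lq n) := by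
    refine le_trans ?_ (nu_ge n (Lq n))
    have h1 : (Lq n : ℝ) ^ n ≤ Real.exp (n * (8 * Uq n + 2)) := by
      calc (Lq n : ℝ) ^ n ≤ Real.exp (8 * Uq n + 2) ^ n := pow_le_pow_left₀ hL0.le (Lq_le n) n
        _ = _ := by rw [← Real.exp_nat_mul]
    rw [Real.exp_neg, one_div]
    exact inv_anti₀ (by positivity) h1
  have hsum : Real.exp (-s) * Real.exp (Uq n + 2) ≤ Real.exp (-(n * (8 * Uq n + 2))) := by
    rw [← Real.exp_add]
    refine Real.exp_le_exp.2 ?_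
    have h0 : (0 : ℝ) ≤ Uq n := Nat.cast_nonneg _
    have h1 : (9 : ℝ) ≤ n ^ 2 := by nlinarith
    have h2 : (n : ℝ) * (8 * Uq n + 2) + (Uq n + 2) ≤ 16 * (n : ℝ) ^ 2 * Uq n := by
      have h3 : (n : ℝ) * Uq n * 3 ≤ (n : ℝ) ^ 2 * Uq n := by
        have h4 : 0 ≤ (n : ℝ) * Uq n := by positivity
        nlinarith
      have h5 : (n : ℝ) * 2 ≤ 2 * Uq n := by linarith
      have h6 : (Uq n : ℝ) * 9 ≤ (n : ℝ) ^ 2 * Uq n := by nlinarith
      have h7 : (2 : ℝ) ≤ Uq n := by linarith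
      nlinarith
    linarith
  have h0 : 0 < Real.exp (-s) := Real.exp_pos _
  exact ⟨(mul_le_mul_of_nonneg_left hD' h0.le).trans (hsum.trans hν),
    (mul_le_mul_of_nonneg_left hM h0.le).trans (hsum.trans hν)⟩

/-- The size of the exponent. -/
theorem tower {n : ℕ} (hn : 3 ≤ n) {l : ℝ} (hl : (n : ℝ) ^ 7 ≤ l) :
    16 * (n : ℝ) ^ 2 * Uq n ≤ Real.exp l := by
  have hnr : (3 : ℝ) ≤ n := by exact_mod_cast hn
  have h4n : (0 : ℝ) < 4 * n := by linarith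
  have h1 : 16 * (n : ℝ) ^ 2 * Uq n = (4 * n : ℝ) ^ (4 * n ^ 2 + 9 * n + 6) := by
    rw [Uq_cast]
    have h2 : (4 * n : ℝ) ^ (4 * n ^ 2 + 9 * n + 6) =
        (4 * n : ℝ) ^ (4 * n ^ 2 + 9 * n + 4) * (4 * n : ℝ) ^ 2 := by
      rw [← pow_add]
    rw [h2]
    ring
  rw [h1]
  have h3 : (4 * n : ℝ) ≤ Real.exp (4 * n) := by
    have := Real.add_one_le_exp (4 * n : ℝ)
    linarith
  calc (4 * n : ℝ) ^ (4 * n ^ 2 + 9 * n + 6) ≤ Real.exp (4 * n) ^ (4 * n ^ 2 + 9 * n + 6) :=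
        pow_le_pow_left₀ h4n.le h3 _
    _ = Real.exp (((4 * n ^ 2 + 9 * n + 6 : ℕ) : ℝ) * (4 * n)) := by rw [← Real.exp_nat_mul]
    _ ≤ Real.exp l := Real.exp_le_exp.2 ?_
  refine le_trans ?_ hl
  push_cast
  have h5 : (4 : ℝ) * n ^ 2 + 9 * n + 6 ≤ 8 * n ^ 2 := by nlinarith
  have h6 : ((4 : ℝ) * n ^ 2 + 9 * n + 6) * (4 * n) ≤ 8 * n ^ 2 * (4 * n) :=
    mul_le_mul_of_nonneg_right h5 h4n.le
  refine h6.trans ?_
  have h7 : (81 : ℝ) ≤ n ^ 4 := by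
    have h8 : (9 : ℝ) ≤ n ^ 2 := by nlinarith
    have h9 : (n : ℝ) ^ 4 = n ^ 2 * n ^ 2 := by ring
    rw [h9]
    nlinarith
  have h10 : (n : ℝ) ^ 7 = n ^ 3 * n ^ 4 := by ring
  have h11 : (8 : ℝ) * n ^ 2 * (4 * n) = 32 * n ^ 3 := by ring
  rw [h10, h11]
  have h12 : (0 : ℝ) ≤ n ^ 3 := by positivity
  nlinarith

/-- All parameters together. -/
theorem allQ : ∃ K : ℝ, 1 ≤ K ∧ ∀ D T : ℝ, 1 ≤ D → 28 * K * D ^ 2 + 7 ≤ T →
    UGHardK 2 (1 - Real.exp (-Real.exp (Real.exp T))) (1 - D * Real.exp (-Real.exp (Real.exp T))) := by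
  obtain ⟨A1, hA1, hS⟩ := structQ H937.K2.tailThm (lowThm H25.bonamiThm)
  obtain ⟨A3, hA3, hPA⟩ := pairQ ball two
  obtain ⟨A2, hA2, hlc⟩ := np_lc_q
  obtain ⟨K0, hK0, hsound⟩ := soundQ hA1 hA3 hS H469.K2.lipThm H469.K2.monoThm H469.K2.sumThm
    H756.K2.pruneThm (H810.K2.acThm ball two H379.loThm) hPA
    (winThm H685.K2.energyThm H685.K2.disp)
    (sigThm H469.K2.monoThm H469.K2.irrThm H469.K2.oddThm H685.K2.oddFF)
    (H439.decodeThm H469.K2.sumThm H469.K2.irrThm H469.K2.monoThm)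
  refine ⟨K0 + A2, by linarith, fun D T hD hT => ?_⟩
  set K : ℝ := K0 + A2 with hK
  have hK0' : 6 ≤ K0 := by linarith
  have hD2 : D ≤ D ^ 2 := by nlinarith
  have hD1 : 1 ≤ D ^ 2 := by nlinarith
  -- the number of slots
  set n : ℕ := ⌈Real.exp (4 * K * D ^ 2)⌉₊ with hn
  have hnge : Real.exp (4 * K * D ^ 2) ≤ n := Nat.le_ceil _
  have hnle : (n : ℝ) ≤ Real.exp (4 * K * D ^ 2) + 1 :=
    (Nat.ceil_lt_add_one (Real.exp_pos _).le).le
  have hKD : 4 * K * D ^ 2 + 1 ≤ n := (Real.add_one_le_exp _).trans hnge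
  have hKD2 : K ≤ K * D ^ 2 := by nlinarith
  have hn3r : (3 : ℝ) ≤ n := by nlinarith
  have hn3 : 3 ≤ n := by exact_mod_cast hn3r
  have hA2n : A2 ≤ n := by nlinarith
  have hDn : D ≤ n := by nlinarith
  have hnz : NeZero n := ⟨by omega⟩
  have hslots : Real.exp (K0 * (D + 1) ^ 2) ≤ n := by
    refine le_trans (Real.exp_le_exp.2 ?_) hnge
    have h1 : (D + 1) ^ 2 ≤ 4 * D ^ 2 := by nlinarith
    have h2 : K0 * (D + 1) ^ 2 ≤ K0 * (4 * D ^ 2) := mul_le_mul_of_nonneg_left h1 (by linarith)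
    have h3 : 0 ≤ A2 * (4 * D ^ 2) := by positivity
    rw [hK]
    nlinarith
  -- the alphabet
  have hY1 : (1 : ℝ) ≤ 4 * Yq n := by
    have := (num_Y hn3).1
    linarith
  obtain ⟨r, hrz, hr, hnp⟩ := hlc (4 * Yq n) hY1
  have hrZ : (r : ℝ) ≤ Real.exp (Zq n) := by
    refine hr.trans (Real.exp_le_exp.2 ?_)
    have h1 : ((Zq n : ℕ) : ℝ) = 4 * n * Yq n := by
      rw [Yq_cast]
      unfold Zq
      push_cast
      have h2 : (4 * n : ℝ) ^ (8 * n + 4) = (4 * n : ℝ) ^ (8 * n + 3) * (4 * n) := by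
        rw [← pow_succ]
      rw [h2]
      ring
    rw [h1]
    have h3 : (0 : ℝ) ≤ Yq n := Nat.cast_nonneg _
    nlinarith
  -- the error
  have h7 : (n : ℝ) ^ 7 ≤ Real.exp T := by
    have h1 : (n : ℝ) ≤ Real.exp (4 * K * D ^ 2 + 1) := by
      rw [Real.exp_add]
      have h2 : (2 : ℝ) ≤ Real.exp 1 := by
        have := Real.add_one_le_exp (1 : ℝ)
        linarith
      have h3 : 1 ≤ Real.exp (4 * K * D ^ 2) := Real.one_le_exp (by positivity)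
      nlinarith
    calc (n : ℝ) ^ 7 ≤ Real.exp (4 * K * D ^ 2 + 1) ^ 7 := pow_le_pow_left₀ (by positivity) h1 7
      _ = Real.exp ((7 : ℕ) * (4 * K * D ^ 2 + 1)) := by rw [← Real.exp_nat_mul]
      _ ≤ Real.exp T := Real.exp_le_exp.2 (by push_cast; linarith)
  have hs := tower hn3 h7
  obtain ⟨hf1, hf2⟩ := fits hn3 hrZ hs hDn
  exact red_core H160C.complete countThm hD hnp
    (fun G hG hGs A hA => hsound (D + 1) (by linarith) n hslots r hrZ G hG hGs A hA)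
    (H810.K2.nuPos n (Lq n) (Lq_pos n)) (Real.exp_pos _) hf1 hf2

/-- Hardness within a factor `C` for completeness `1 - ε`, with an explicit bound for `ε`. -/
theorem explicit : ∃ K : ℝ, 0 < K ∧ ∀ C ε : ℝ, 1 ≤ C → 0 < ε →
    ε ≤ Real.exp (-Real.exp (Real.exp (K * C ^ 2))) → UGHardOver 2 (1 - ε) (1 - C * ε) := by
  obtain ⟨K, hK, h⟩ := allQ
  refine ⟨28 * K + 7, by linarith, fun C ε hC hε hε' => ?_⟩
  have hC2 : 1 ≤ C ^ 2 := by nlinarith
  set T : ℝ := Real.log (Real.log (Real.log (1 / ε))) with hT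
  have h1 : Real.exp (Real.exp ((28 * K + 7) * C ^ 2)) ≤ Real.log (1 / ε) := by
    rw [Real.le_log_iff_exp_le (by positivity), le_div_iff₀ hε]
    have h2 := mul_le_mul_of_nonneg_left hε'
      (Real.exp_pos (Real.exp (Real.exp ((28 * K + 7) * C ^ 2)))).le
    rw [← Real.exp_add, add_neg_cancel, Real.exp_zero] at h2
    exact h2
  have h1' : 0 < Real.log (1 / ε) := lt_of_lt_of_le (Real.exp_pos _) h1
  have h2 : Real.exp ((28 * K + 7) * C ^ 2) ≤ Real.log (Real.log (1 / ε)) := by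
    rw [Real.le_log_iff_exp_le h1']
    exact h1
  have h2' : 0 < Real.log (Real.log (1 / ε)) := lt_of_lt_of_le (Real.exp_pos _) h2
  have h3 : (28 * K + 7) * C ^ 2 ≤ T := by
    rw [hT, Real.le_log_iff_exp_le h2']
    exact h2
  have hε2 : Real.exp (-Real.exp (Real.exp T)) = ε := by
    rw [hT, Real.exp_log h2', Real.exp_log h1', Real.exp_neg, Real.exp_log (by positivity),
      one_div, inv_inv]
  have h6 := h C T hC (by nlinarith)
  rw [hε2] at h6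
  exact h6

/-- Hardness within a factor that tends to infinity as the completeness tends to one. -/
theorem growing : ∃ c ε₀ : ℝ, 0 < c ∧ 0 < ε₀ ∧ ∀ ε : ℝ, 0 < ε → ε ≤ ε₀ →
    UGHardOver 2 (1 - ε)
      (1 - c * Real.sqrt (Real.log (Real.log (Real.log (1 / ε)))) * ε) := by
  obtain ⟨K, hK, h⟩ := explicit
  refine ⟨1 / Real.sqrt K, Real.exp (-Real.exp (Real.exp K)), by positivity,
    Real.exp_pos _, fun ε hε hε' => ?_⟩
  have h1 : Real.exp (Real.exp K) ≤ Real.log (1 / ε) := by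
    rw [Real.le_log_iff_exp_le (by positivity), le_div_iff₀ hε]
    have h2 := mul_le_mul_of_nonneg_left hε' (Real.exp_pos (Real.exp (Real.exp K))).le
    rw [← Real.exp_add, add_neg_cancel, Real.exp_zero] at h2
    exact h2
  have h1' : 0 < Real.log (1 / ε) := lt_of_lt_of_le (Real.exp_pos _) h1
  have h2 : Real.exp K ≤ Real.log (Real.log (1 / ε)) := by
    rw [Real.le_log_iff_exp_le h1']
    exact h1
  have h2' : 0 < Real.log (Real.log (1 / ε)) := lt_of_lt_of_le (Real.exp_pos _) h2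
  set T : ℝ := Real.log (Real.log (Real.log (1 / ε))) with hT
  have h3 : K ≤ T := by
    rw [hT, Real.le_log_iff_exp_le h2']
    exact h2
  have hT0 : 0 < T := by linarith
  have hD2 : (1 / Real.sqrt K * Real.sqrt T) ^ 2 = T / K := by
    rw [mul_pow, div_pow, Real.sq_sqrt hT0.le, Real.sq_sqrt hK.le]
    ring
  have hD0 : 0 ≤ 1 / Real.sqrt K * Real.sqrt T := by positivity
  refine h _ ε ?_ hε ?_
  · have h4 : 1 ≤ (1 / Real.sqrt K * Real.sqrt T) ^ 2 := by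
      rw [hD2, one_le_div hK]
      exact h3
    nlinarith
  · have h5 : K * (1 / Real.sqrt K * Real.sqrt T) ^ 2 = T := by
      rw [hD2]
      field_simp
    rw [h5, hT, Real.exp_log h2', Real.exp_log h1', Real.exp_neg, Real.exp_log (by positivity),
      one_div, inv_inv]

end Vale.Agent.P325.K2.Q
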