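import Vale.Agent.P325.R4.H480.SoundCore

/-!
# The numerical part of the soundness with explicit parameters
-/

namespace Vale.Agent.P325.K2.Q

open Finset Vale.Agent.Lib.PCP Vale.Agent.P342

/-- The constant in the number of slots. -/
noncomputable def Kq (A1 A3 C0 : ℝ) : ℝ :=
  3072 * (C0 + 1) + 256 * A1 * (C0 + 1) ^ 2 + (A1 + A3 + 3)

theorem num_slots {A1 A3 C0 C1 : ℝ} {n : ℕ} (hA1 : 1 ≤ A1) (hA3 : 2 ≤ A3) (hC0 : 0 < C0)
    (hC1 : 1 ≤ C1) (hn : Real.exp (Kq A1 A3 C0 * C1 ^ 2) ≤ n) :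
    48 * (32 * Real.exp (128 * A1 * (C1 * C0 + 1) ^ 2)) * (C1 * C0 + 1) ≤ Real.sqrt n := by
  have hC1p : 0 < C1 := by linarith
  set E1 : ℝ := C1 * C0 + 1 with hE1
  have hE1p : 0 < E1 := by positivity
  have hE1le : E1 ≤ (C0 + 1) * C1 := by rw [hE1]; nlinarith
  have hC12 : C1 ≤ C1 ^ 2 := by nlinarith
  refine Real.le_sqrt_of_sq_le (le_trans ?_ hn)
  have h1 : (1536 * E1) ≤ Real.exp (1536 * E1) := by
    have := Real.add_one_le_exp (1536 * E1)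
    linarith
  have h2 : 48 * (32 * Real.exp (128 * A1 * E1 ^ 2)) * E1 ≤
      Real.exp (1536 * E1) * Real.exp (128 * A1 * E1 ^ 2) := by
    calc 48 * (32 * Real.exp (128 * A1 * E1 ^ 2)) * E1
        = (1536 * E1) * Real.exp (128 * A1 * E1 ^ 2) := by ring
      _ ≤ _ := mul_le_mul_of_nonneg_right h1 (Real.exp_pos _).le
  have h3 : (48 * (32 * Real.exp (128 * A1 * E1 ^ 2)) * E1) ^ 2 ≤
      Real.exp (3072 * E1 + 256 * A1 * E1 ^ 2) := by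
    calc (48 * (32 * Real.exp (128 * A1 * E1 ^ 2)) * E1) ^ 2
        ≤ (Real.exp (1536 * E1) * Real.exp (128 * A1 * E1 ^ 2)) ^ 2 :=
          pow_le_pow_left₀ (by positivity) h2 2
      _ = _ := by
          rw [← Real.exp_add, ← Real.exp_nat_mul]
          congr 1
          push_cast
          ring
  refine h3.trans (Real.exp_le_exp.2 ?_)
  have h4 : E1 ^ 2 ≤ (C0 + 1) ^ 2 * C1 ^ 2 := by
    calc E1 ^ 2 ≤ ((C0 + 1) * C1) ^ 2 := pow_le_pow_left₀ hE1p.le hE1le 2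
      _ = _ := by ring
  have h5 : E1 ≤ (C0 + 1) * C1 ^ 2 :=
    hE1le.trans (mul_le_mul_of_nonneg_left hC12 (by positivity))
  have h6 : 256 * A1 * E1 ^ 2 ≤ 256 * A1 * ((C0 + 1) ^ 2 * C1 ^ 2) :=
    mul_le_mul_of_nonneg_left h4 (by positivity)
  have h7 : 0 ≤ (A1 + A3 + 3) * C1 ^ 2 := by positivity
  unfold Kq
  linarith

theorem num_three {A1 A3 C0 C1 : ℝ} {n : ℕ} (hA1 : 1 ≤ A1) (hA3 : 2 ≤ A3) (hC0 : 0 < C0)
    (hC1 : 1 ≤ C1) (hn : Real.exp (Kq A1 A3 C0 * C1 ^ 2) ≤ n) :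
    3 ≤ n ∧ A1 ≤ n ∧ A3 ≤ n := by
  have hq0 : 0 ≤ 3072 * (C0 + 1) + 256 * A1 * (C0 + 1) ^ 2 := by positivity
  have hK0n : Kq A1 A3 C0 ≤ n := by
    refine le_trans ?_ hn
    have h1 := Real.add_one_le_exp (Kq A1 A3 C0 * C1 ^ 2)
    have h2 : 0 ≤ Kq A1 A3 C0 := by unfold Kq; linarith
    have h3 : 1 ≤ C1 ^ 2 := by nlinarith
    nlinarith
  unfold Kq at hK0n
  refine ⟨?_, by linarith, by linarith⟩
  have : (3 : ℝ) ≤ n := by linarith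
  exact_mod_cast this

theorem num_M (A1 E1 : ℝ) : 16 / Real.exp (-(A1 * (8 * E1) ^ 2)) *
    (2 / Real.exp (-(A1 * (8 * E1) ^ 2))) = 32 * Real.exp (128 * A1 * E1 ^ 2) := by
  rw [Real.exp_neg, div_inv_eq_mul, div_inv_eq_mul]
  have h1 : Real.exp (128 * A1 * E1 ^ 2) = Real.exp (A1 * (8 * E1) ^ 2) *
      Real.exp (A1 * (8 * E1) ^ 2) := by
    rw [← Real.exp_add]
    congr 1
    ring
  rw [h1]
  ring

theorem num_t2 (n : ℕ) : (1 / (4 * n : ℝ) ^ (2 * n)) ^ 2 = 1 / (4 * n : ℝ) ^ (4 * n) := by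
  rw [div_pow, one_pow, ← pow_mul]
  congr 2
  ring

theorem num_legs {n : ℕ} (hn : 3 ≤ n) :
    (n : ℝ) / Nq n ≤ (1 / (4 * n : ℝ) ^ (2 * n)) ^ 2 / 2 := by
  have hnr : (3 : ℝ) ≤ n := by exact_mod_cast hn
  have hNr : ((Nq n : ℕ) : ℝ) = (4 * n : ℝ) ^ (4 * n) * (4 * n) := by
    unfold Nq
    push_cast
    rw [pow_succ]
  rw [hNr, num_t2]
  rw [div_le_div_iff₀ (by positivity) (by norm_num)]
  have h1 : (0 : ℝ) < (4 * n : ℝ) ^ (4 * n) := by positivity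
  have h2 : 1 / (4 * n : ℝ) ^ (4 * n) * ((4 * n : ℝ) ^ (4 * n) * (4 * n)) = 4 * n := by
    field_simp
  rw [h2]
  linarith

theorem Yq_cast (n : ℕ) : ((Yq n : ℕ) : ℝ) = (4 * n : ℝ) ^ (8 * n + 3) := by
  unfold Yq
  push_cast
  rfl

theorem Uq_cast (n : ℕ) : ((Uq n : ℕ) : ℝ) = (4 * n : ℝ) ^ (4 * n ^ 2 + 9 * n + 4) := by
  unfold Uq
  push_cast
  rfl

theorem num_energy {A1 E1 τ : ℝ} {n : ℕ} (hn : 3 ≤ n) (hA1n : A1 ≤ n) (hE1 : 0 < E1)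
    (hτ : 0 < τ) (hME : 8 * (16 / τ * (2 / τ)) * E1 ≤ n) :
    A1 * (64 * E1 / ((1 / (4 * n : ℝ) ^ (2 * n)) ^ 2 * τ) / (τ / 4)) ^ 2 ≤ Yq n := by
  have hnr : (3 : ℝ) ≤ n := by exact_mod_cast hn
  have h4 : 64 * E1 / ((1 / (4 * n : ℝ) ^ (2 * n)) ^ 2 * τ) / (τ / 4) ≤
      (4 * n : ℝ) ^ (4 * n + 1) := by
    have h1 : 64 * E1 / ((1 / (4 * n : ℝ) ^ (2 * n)) ^ 2 * τ) / (τ / 4) =
        8 * (16 / τ * (2 / τ)) * E1 * (4 * n : ℝ) ^ (4 * n) := by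
      rw [num_t2]
      field_simp
      ring
    rw [h1, pow_succ, mul_comm ((4 * n : ℝ) ^ (4 * n))]
    refine mul_le_mul_of_nonneg_right ?_ (by positivity)
    linarith
  have h0 : 0 ≤ 64 * E1 / ((1 / (4 * n : ℝ) ^ (2 * n)) ^ 2 * τ) / (τ / 4) := by positivity
  have h2 : (64 * E1 / ((1 / (4 * n : ℝ) ^ (2 * n)) ^ 2 * τ) / (τ / 4)) ^ 2 ≤
      ((4 * n : ℝ) ^ (4 * n + 1)) ^ 2 := pow_le_pow_left₀ h0 h4 2
  have h3 : A1 * (64 * E1 / ((1 / (4 * n : ℝ) ^ (2 * n)) ^ 2 * τ) / (τ / 4)) ^ 2 ≤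
      (4 * n : ℝ) * ((4 * n : ℝ) ^ (4 * n + 1)) ^ 2 :=
    mul_le_mul (by linarith) h2 (by positivity) (by positivity)
  refine h3.trans (le_of_eq ?_)
  rw [Yq_cast, ← pow_mul, ← pow_succ']
  congr 1
  ring

theorem num_Y {n : ℕ} (hn : 3 ≤ n) : (n : ℝ) ≤ Yq n ∧
    256 * n * (4 * n : ℝ) ^ (4 * n) ≤ Real.exp (2 * Yq n) := by
  have hnr : (3 : ℝ) ≤ n := by exact_mod_cast hn
  have h4n1 : (1 : ℝ) ≤ 4 * n := by linarith
  rw [Yq_cast]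
  constructor
  · calc (n : ℝ) ≤ 4 * n := by linarith
      _ = (4 * n : ℝ) ^ 1 := (pow_one _).symm
      _ ≤ (4 * n : ℝ) ^ (8 * n + 3) := pow_le_pow_right₀ h4n1 (by omega)
  · have h4 := Real.add_one_le_exp (2 * (4 * n : ℝ) ^ (8 * n + 3))
    have h6 : (4 * n : ℝ) ^ (8 * n + 3) = (4 * n : ℝ) ^ (4 * n) * (4 * n : ℝ) ^ (4 * n + 3) := by
      rw [← pow_add]
      congr 1
      ring
    have h7 : (4 * n : ℝ) ^ 3 ≤ (4 * n : ℝ) ^ (4 * n + 3) :=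
      pow_le_pow_right₀ h4n1 (by omega)
    have h8 : 128 * (n : ℝ) ≤ (4 * n : ℝ) ^ 3 := by
      have h9 : (4 * n : ℝ) ^ 3 = 64 * n * n * n := by ring
      rw [h9]
      have h10 : (9 : ℝ) ≤ n * n := by nlinarith
      nlinarith
    have h11 : 256 * n * (4 * n : ℝ) ^ (4 * n) ≤ 2 * (4 * n : ℝ) ^ (8 * n + 3) := by
      rw [h6]
      have h12 : (0 : ℝ) ≤ (4 * n : ℝ) ^ (4 * n) := by positivity
      calc 256 * n * (4 * n : ℝ) ^ (4 * n) = 2 * ((4 * n : ℝ) ^ (4 * n) * (128 * n)) := by ring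
        _ ≤ 2 * ((4 * n : ℝ) ^ (4 * n) * (4 * n : ℝ) ^ (4 * n + 3)) := by
            refine mul_le_mul_of_nonneg_left ?_ (by norm_num)
            exact mul_le_mul_of_nonneg_left (h8.trans h7) h12
    linarith

theorem num_J {τ : ℝ} {n : ℕ} (hn : 3 ≤ n) (hτ : 0 < τ) (hτn : 2 / τ ≤ n) :
    1 / Real.exp (-(Yq n : ℝ)) ≤ (⌈Real.exp (Yq n)⌉₊ : ℕ) ∧
    2 / τ ≤ (⌈Real.exp (Yq n)⌉₊ : ℕ) ∧
    ((⌈Real.exp (Yq n)⌉₊ : ℕ) : ℝ) ^ 2 * Real.exp (-(4 * Yq n)) ≤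
      (1 / (4 * n : ℝ) ^ (2 * n)) ^ 2 * τ / 64 := by
  obtain ⟨hYn, hY2⟩ := num_Y hn
  have hnr : (3 : ℝ) ≤ n := by exact_mod_cast hn
  set Y : ℝ := (Yq n : ℝ) with hY
  have hYpos : 0 < Y := by linarith
  have hJY : Real.exp Y ≤ (⌈Real.exp Y⌉₊ : ℕ) := Nat.le_ceil _
  have hJ0 : (0 : ℝ) < (⌈Real.exp Y⌉₊ : ℕ) := lt_of_lt_of_le (Real.exp_pos _) hJY
  have hJle : ((⌈Real.exp Y⌉₊ : ℕ) : ℝ) ≤ 2 * Real.exp Y := by
    have h1 : ((⌈Real.exp Y⌉₊ : ℕ) : ℝ) < Real.exp Y + 1 :=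
      Nat.ceil_lt_add_one (Real.exp_pos _).le
    have h2 : 1 ≤ Real.exp Y := Real.one_le_exp hYpos.le
    linarith
  refine ⟨?_, ?_, ?_⟩
  · rw [Real.exp_neg, one_div, inv_inv]
    exact hJY
  · refine hτn.trans (hYn.trans (le_trans ?_ hJY))
    have := Real.add_one_le_exp Y
    linarith
  · have h1 : ((⌈Real.exp Y⌉₊ : ℕ) : ℝ) ^ 2 * Real.exp (-(4 * Y)) ≤ 4 * Real.exp (-(2 * Y)) := by
      calc ((⌈Real.exp Y⌉₊ : ℕ) : ℝ) ^ 2 * Real.exp (-(4 * Y))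
          ≤ (2 * Real.exp Y) ^ 2 * Real.exp (-(4 * Y)) :=
            mul_le_mul_of_nonneg_right (pow_le_pow_left₀ hJ0.le hJle 2) (Real.exp_pos _).le
        _ = 4 * (Real.exp Y * Real.exp Y * Real.exp (-(4 * Y))) := by ring
        _ = 4 * Real.exp (-(2 * Y)) := by
            rw [← Real.exp_add, ← Real.exp_add]
            congr 2
            ring
    refine h1.trans ?_
    rw [Real.exp_neg, num_t2]
    have h9 : 256 * (4 * n : ℝ) ^ (4 * n) ≤ Real.exp (2 * Y) * τ := by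
      have h8 : 1 / τ ≤ n := by
        refine le_trans ?_ hτn
        exact div_le_div_of_nonneg_right (by norm_num) hτ.le
      have h10 : 256 * (4 * n : ℝ) ^ (4 * n) * (1 / τ) ≤ Real.exp (2 * Y) := by
        refine le_trans ?_ hY2
        calc 256 * (4 * n : ℝ) ^ (4 * n) * (1 / τ) ≤ 256 * (4 * n : ℝ) ^ (4 * n) * n :=
              mul_le_mul_of_nonneg_left h8 (by positivity)
          _ = _ := by ring
      rw [mul_one_div, div_le_iff₀ hτ] at h10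
      exact h10
    have h11 : 1 / (4 * n : ℝ) ^ (4 * n) * τ / 64 = τ / (64 * (4 * n : ℝ) ^ (4 * n)) := by
      field_simp
    rw [h11, ← div_eq_mul_inv, div_le_div_iff₀ (Real.exp_pos _) (by positivity)]
    linarith

theorem num_U {n : ℕ} (hn : 3 ≤ n) : (4 * n : ℝ) ^ 4 ≤ Uq n ∧ 8 * (n : ℝ) ^ 3 ≤ (4 * n : ℝ) ^ 4 ∧
    64 * (n : ℝ) * n ≤ (4 * n : ℝ) ^ 4 := by
  have hnr : (3 : ℝ) ≤ n := by exact_mod_cast hn
  have h4n1 : (1 : ℝ) ≤ 4 * n := by linarith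
  refine ⟨?_, ?_, ?_⟩
  · rw [Uq_cast]
    exact pow_le_pow_right₀ h4n1 (by omega)
  · have h3 : (4 * n : ℝ) ^ 4 = 256 * n * n ^ 3 := by ring
    rw [h3]
    have h4 : 0 ≤ (n : ℝ) ^ 3 := by positivity
    nlinarith
  · have h5 : (4 * n : ℝ) ^ 4 = 256 * n * n * (n * n) := by ring
    rw [h5]
    have h6 : (1 : ℝ) ≤ n * n := by nlinarith
    have h7 : (0 : ℝ) ≤ n * n := by positivity
    nlinarith

theorem Lq_ge (n : ℕ) : 2 * Real.exp (8 * Uq n) ≤ Lq n := by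
  unfold Lq
  push_cast
  exact mul_le_mul_of_nonneg_left (Nat.le_ceil _) (by norm_num)

theorem num_L1 {τ : ℝ} {n : ℕ} (hn : 3 ≤ n) (hτ : 0 < τ) (hτn : 2 / τ ≤ n) :
    64 * n / τ ≤ Lq n := by
  obtain ⟨h1, h2, h3⟩ := num_U hn
  have h8 : 1 / τ ≤ n := by
    refine le_trans ?_ hτn
    exact div_le_div_of_nonneg_right (by norm_num) hτ.le
  have h4 : 64 * n / τ = 64 * n * (1 / τ) := by ring
  rw [h4]
  have h5 : 64 * (n : ℝ) * (1 / τ) ≤ 64 * n * n := mul_le_mul_of_nonneg_left h8 (by positivity)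
  refine h5.trans (le_trans ?_ (Lq_ge n))
  have h6 := Real.add_one_le_exp (8 * (Uq n : ℝ))
  have h7 : (0 : ℝ) ≤ Uq n := Nat.cast_nonneg _
  linarith

theorem num_L2 {A3 : ℝ} {n r : ℕ} (hn : 3 ≤ n) (hA3n : A3 ≤ n)
    (hr : (r : ℝ) ≤ Real.exp (Zq n)) :
    A3 * ((Fintype.card (Lab n (Nq n) r) : ℝ) ^ 2 + 1) ^ 3 / (1 / Real.sqrt n) ^ 3 ≤ Lq n := by
  obtain ⟨hU1, hU2, -⟩ := num_U hn
  have hV := card_lab_le (n := n) hr
  have hnr : (3 : ℝ) ≤ n := by exact_mod_cast hn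
  have hsq : (0 : ℝ) < Real.sqrt n := Real.sqrt_pos.2 (by linarith)
  have hsqn : Real.sqrt n ≤ n := by
    rw [Real.sqrt_le_left (by positivity)]
    nlinarith
  set U : ℝ := (Uq n : ℝ) with hU
  set V : ℝ := (Fintype.card (Lab n (Nq n) r) : ℝ) with hVdef
  have hV0 : (0 : ℝ) ≤ V := Nat.cast_nonneg _
  have hUpos : 0 < U := lt_of_lt_of_le (by positivity) hU1
  have h8U : 8 * (n : ℝ) ^ 3 ≤ Real.exp (2 * U) := by
    have h1 := Real.add_one_le_exp (2 * U)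
    linarith
  have h1 : V ^ 2 + 1 ≤ 2 * Real.exp (2 * U) := by
    have h2 : V ^ 2 ≤ Real.exp (2 * U) := by
      calc V ^ 2 ≤ Real.exp U ^ 2 := pow_le_pow_left₀ hV0 hV 2
        _ = Real.exp (2 * U) := by
            rw [← Real.exp_nat_mul]
            push_cast
            rfl
    have h3 : 1 ≤ Real.exp (2 * U) := Real.one_le_exp (by positivity)
    linarith
  have h4 : (V ^ 2 + 1) ^ 3 ≤ 8 * Real.exp (6 * U) := by
    calc (V ^ 2 + 1) ^ 3 ≤ (2 * Real.exp (2 * U)) ^ 3 := pow_le_pow_left₀ (by positivity) h1 3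
      _ = 8 * Real.exp (2 * U) ^ 3 := by ring
      _ = 8 * Real.exp (6 * U) := by
          rw [← Real.exp_nat_mul]
          congr 2
          push_cast
          ring
  have h5 : A3 * (V ^ 2 + 1) ^ 3 / (1 / Real.sqrt n) ^ 3 =
      A3 * (V ^ 2 + 1) ^ 3 * Real.sqrt n ^ 3 := by
    field_simp
  rw [h5]
  have h6 : Real.sqrt n ^ 3 ≤ (n : ℝ) ^ 2 := by
    have h7 : Real.sqrt n ^ 3 = n * Real.sqrt n := by
      rw [pow_succ, Real.sq_sqrt (by positivity)]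
    rw [h7, sq]
    exact mul_le_mul_of_nonneg_left hsqn (by positivity)
  calc A3 * (V ^ 2 + 1) ^ 3 * Real.sqrt n ^ 3
      ≤ n * (8 * Real.exp (6 * U)) * (n : ℝ) ^ 2 := by gcongr
    _ = 8 * (n : ℝ) ^ 3 * Real.exp (6 * U) := by ring
    _ ≤ Real.exp (2 * U) * Real.exp (6 * U) :=
        mul_le_mul_of_nonneg_right h8U (Real.exp_pos _).le
    _ = Real.exp (8 * U) := by rw [← Real.exp_add]; congr 1; ring
    _ ≤ 2 * Real.exp (8 * U) := by have := Real.exp_pos (8 * U); linarith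
    _ ≤ _ := Lq_ge n

end Vale.Agent.P325.K2.Q
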