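import Vale.Agent.P325.H664.K2.PairAvg

/-!
# Pairs of label tuples, with explicit constants
-/

namespace Vale.Agent.P325.K2.Q

open Finset Vale.Agent.Lib.PCP Vale.Agent.P342

/-- Two different addresses, with an explicit constant. -/
def PairQ (A : ℝ) : Prop :=
  ∀ n : ℕ, 3 ≤ n → ∀ ε : ℝ, 0 < ε → ε ≤ 1 → ∀ L : ℕ, A / ε ^ 3 ≤ L → Even L →
    ∀ (K : Type) [Fintype K] [DecidableEq K] (κ κ' : Fin n → K), κ ≠ κ' →
    Pr (fun p : (Fin n → Fin L) × (Bt n L K → Bool) => near p.1 p.2 κ ∧ near p.1 p.2 κ') ≤ ε / L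

theorem pairQ (hBall : BallThm) (hTwo : TwoThm) : ∃ A : ℝ, 2 ≤ A ∧ PairQ A := by
  obtain ⟨CB, hCB, hB⟩ := hBall
  obtain ⟨CT, hCT, hT⟩ := hTwo
  refine ⟨3 * CB ^ 2 * (12 * CT + 1) ^ 2 + 3 * CT + 2, ?_, ?_⟩
  · have : 0 ≤ 3 * CB ^ 2 * (12 * CT + 1) ^ 2 := by positivity
    linarith
  intro n hn ε hε hε1 L hL hev K _ _ κ κ' hκ
  set δ : ℝ := ε / (3 * CT) with hδ
  have hδ0 : 0 < δ := by positivity
  set P0 : ℝ := (4 / δ + 1) * CB with hP0
  have hP0' : 0 < P0 := by positivity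
  set A : ℝ := 3 * CB ^ 2 * (12 * CT + 1) ^ 2 + 3 * CT + 2 with hA
  have hq : 0 ≤ 3 * CB ^ 2 * (12 * CT + 1) ^ 2 := by positivity
  have hε3 : ε ^ 3 ≤ 1 := pow_le_one₀ hε.le hε1
  have hε3' : ε ^ 3 ≤ ε := by
    calc ε ^ 3 = ε * ε ^ 2 := by ring
      _ ≤ ε * 1 := mul_le_mul_of_nonneg_left (pow_le_one₀ hε.le hε1) hε.le
      _ = ε := mul_one _
  have hA0 : 0 < A := by rw [hA]; linarith
  have hL2 : 2 ≤ L := by
    have h1 : (2 : ℝ) ≤ A / ε ^ 3 := by
      rw [le_div_iff₀ (by positivity)]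
      rw [hA]
      nlinarith
    exact_mod_cast h1.trans hL
  have hL3 : 3 * CT / ε ≤ L := by
    refine le_trans ?_ hL
    calc 3 * CT / ε ≤ A / ε := by
          refine div_le_div_of_nonneg_right ?_ hε.le
          rw [hA]; linarith
      _ ≤ A / ε ^ 3 := div_le_div_of_nonneg_left hA0.le (by positivity) hε3'
  have hL4 : 3 * P0 ^ 2 / ε ≤ L := by
    refine le_trans ?_ hL
    have h1 : P0 ≤ (12 * CT + 1) * CB / ε := by
      rw [hP0, le_div_iff₀ hε]
      have h2 : 4 / δ = 12 * CT / ε := by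
        rw [hδ]; field_simp; ring
      rw [h2]
      have h3 : (12 * CT / ε + 1) * CB * ε = (12 * CT + ε) * CB := by field_simp
      rw [h3]
      exact mul_le_mul_of_nonneg_right (by linarith) hCB.le
    have h2 : P0 ^ 2 ≤ ((12 * CT + 1) * CB / ε) ^ 2 := pow_le_pow_left₀ hP0'.le h1 2
    calc 3 * P0 ^ 2 / ε ≤ 3 * ((12 * CT + 1) * CB / ε) ^ 2 / ε := by gcongr
      _ = (3 * CB ^ 2 * (12 * CT + 1) ^ 2) / ε ^ 3 := by field_simp
      _ ≤ A / ε ^ 3 := by
          refine div_le_div_of_nonneg_right ?_ (by positivity)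
          rw [hA]; linarith
  have hL0 : (0 : ℝ) < L := by exact_mod_cast (by omega : 0 < L)
  obtain ⟨k1, hk1⟩ := Function.ne_iff.1 hκ
  obtain ⟨k2, hk2, k3, hk3, h23⟩ : ∃ k2 : Fin n, k1 ≠ k2 ∧ ∃ k3 : Fin n, k1 ≠ k3 ∧ k2 ≠ k3 := by
    have h5 : 1 < #((univ : Finset (Fin n)).erase k1) := by
      rw [card_erase_of_mem (mem_univ _), card_univ, Fintype.card_fin]
      omega
    obtain ⟨a, ha, b, hb, hab⟩ := one_lt_card.1 h5
    exact ⟨a, (ne_of_mem_erase ha).symm, b, (ne_of_mem_erase hb).symm, hab⟩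
  have h6 : Pr (fun p : (Fin n → Fin L) × (Bt n L K → Bool) =>
      near p.1 p.2 κ ∧ near p.1 p.2 κ') ≤
      (δ * L + 1) / L * (CT / L) + ((4 / δ + 1) * CB / L) * ((4 / δ + 1) * CB / L) := by
    refine le_trans (Pr_mono (q := fun p : (Fin n → Fin L) × (Bt n L K → Bool) =>
      (((p.1 k1 : ℕ) : ℝ) < δ * L ∧ near p.1 p.2 κ) ∨
      (δ * L ≤ ((p.1 k1 : ℕ) : ℝ) ∧ near p.1 p.2 κ ∧ near p.1 p.2 κ')) ?_) ?_
    · rintro p ⟨h7, h8⟩
      by_cases h9 : ((p.1 k1 : ℕ) : ℝ) < δ * L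
      · exact Or.inl ⟨h9, h7⟩
      · exact Or.inr ⟨not_lt.1 h9, h7, h8⟩
    · refine le_trans (Pr_or_le _ _) (add_le_add ?_ ?_)
      · exact part1 CT (by omega) (hT L hL2 hev) κ k1 k2 k3 hk2 hk3 h23 _ (by positivity)
      · exact part2 CB hCB (by omega) (hB L hL2 hev) κ κ' k1 hk1 δ hδ0
  refine h6.trans ?_
  have e1 : (δ * L + 1) / L * (CT / L) = δ * CT / L + CT / L / L := by
    field_simp
  have e2 : δ * CT / L = ε / L / 3 := by
    rw [hδ]
    field_simp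
  have e3 : CT / L / L ≤ ε / L / 3 := by
    rw [div_le_iff₀ hε] at hL3
    rw [div_div, div_div, div_le_div_iff₀ (by positivity) (by positivity)]
    nlinarith
  have e4 : ((4 / δ + 1) * CB / L) * ((4 / δ + 1) * CB / L) ≤ ε / L / 3 := by
    rw [← hP0]
    rw [div_le_iff₀ hε] at hL4
    rw [div_mul_div_comm, div_div, div_le_div_iff₀ (by positivity) (by positivity)]
    nlinarith
  rw [e1, e2]
  linarith

/-- Pairs for windows, with an explicit constant. -/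
theorem pairAvgQ {A : ℝ} (h : PairQ A) (n N r : ℕ) (hn : 3 ≤ n) (ε : ℝ) (hε : 0 < ε)
    (hε1 : ε ≤ 1) (L : ℕ)
    (hL : A * ((Fintype.card (Lab n N r) : ℝ) ^ 2 + 1) ^ 3 / ε ^ 3 ≤ L) (hev : Even L)
    (π : Win n N → Fin r → Fin r) (c : Win n N) :
    Ex (fun a : Fin n → Fin L => pairs n L (adr π c) a) ≤ ε / L := by
  classical
  set M : ℝ := (Fintype.card (Lab n N r) : ℝ) with hM
  have hM0 : 0 ≤ M := Nat.cast_nonneg _
  have hM1 : 1 ≤ M ^ 2 + 1 := by nlinarith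
  have hL' : A / (ε / (M ^ 2 + 1)) ^ 3 ≤ L := by
    refine le_trans (le_of_eq ?_) hL
    field_simp
  have hL0 := h n hn (ε / (M ^ 2 + 1)) (by positivity)
    ((div_le_self hε.le hM1).trans hε1) L hL' hev
  have h1 : Ex (fun a : Fin n → Fin L => pairs n L (adr π c) a) =
      ∑ ν : Lab n N r, ∑ ν' : Lab n N r, Ex (fun a : Fin n → Fin L =>
        if ν = ν' then (0 : ℝ) else
        Pr fun y : Sd n N r L => near a y (adr π c ν) ∧ near a y (adr π c ν')) := by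
    unfold pairs
    rw [Ex_sum]
    refine sum_congr rfl fun ν _ => ?_
    rw [Ex_sum]
    refine sum_congr rfl fun ν' _ => ?_
    refine Ex_congr fun a => ?_
    by_cases h2 : ν = ν'
    · rw [if_pos h2, if_pos h2]
    · rw [if_neg h2, if_neg h2]
  rw [h1]
  have h2 : ∀ ν ν' : Lab n N r, Ex (fun a : Fin n → Fin L =>
        if ν = ν' then (0 : ℝ) else
        Pr fun y : Sd n N r L => near a y (adr π c ν) ∧ near a y (adr π c ν')) ≤
        ε / (M ^ 2 + 1) / L := by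
    intro ν ν'
    by_cases h3 : ν = ν'
    · simp only [if_pos h3]
      have : Ex (fun _ : Fin n → Fin L => (0 : ℝ)) = 0 := by simp [Ex]
      rw [this]
      positivity
    · simp only [if_neg h3]
      have h4 := hL0 (Key n N r) (adr π c ν) (adr π c ν')
        fun h5 => h3 (adr_inj (by omega) π c h5)
      rw [Pr_prod] at h4
      exact h4
  calc (∑ ν : Lab n N r, ∑ ν' : Lab n N r, Ex (fun a : Fin n → Fin L =>
        if ν = ν' then (0 : ℝ) else
        Pr fun y : Sd n N r L => near a y (adr π c ν) ∧ near a y (adr π c ν')))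
      ≤ ∑ ν : Lab n N r, ∑ ν' : Lab n N r, ε / (M ^ 2 + 1) / L :=
        sum_le_sum fun ν _ => sum_le_sum fun ν' _ => h2 ν ν'
    _ = M ^ 2 * (ε / (M ^ 2 + 1) / L) := by
        simp only [sum_const, card_univ, nsmul_eq_mul]
        rw [← hM]
        ring
    _ = (M ^ 2 / (M ^ 2 + 1)) * (ε / L) := by ring
    _ ≤ 1 * (ε / L) := by
        refine mul_le_mul_of_nonneg_right ?_ (by positivity)
        rw [div_le_one (by positivity)]
        linarith
    _ = ε / L := one_mul _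

end Vale.Agent.P325.K2.Q
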