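import Vale.Agent.P325.H25.K2.Struct

/-!
# The structure theorem with an explicit dependence of the constants
-/

namespace Vale.Agent.P325.K2.Q

open Finset Real

theorem StructAt.mono {E E' ε τ τ' : ℝ} (h : StructAt E ε τ) (hE : E' ≤ E) (hτ : τ' ≤ τ) :
    StructAt E' ε τ' := by
  intro ι G _ _ _ _ grp f hf he H hH
  exact h ι G grp f hf (he.trans hE) H fun g hg => (hH g hg).trans_le hτ

/-- The structure theorem with explicit constants. -/
theorem structQ (hT : TailThm) (hL : LowThm) : ∃ A : ℝ, 1 ≤ A ∧ ∀ E ε : ℝ, 1 ≤ E → 0 < ε →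
    ε ≤ 1 → ∀ τ : ℝ, 0 < τ → τ ≤ Real.exp (-(A * (E / ε) ^ 2)) → StructAt E ε τ := by
  classical
  obtain ⟨C1, hT⟩ := hT
  obtain ⟨C2, hC2, hL⟩ := hL
  set K : ℝ := 2 * |C1| + 2 with hK
  have hK2 : 2 ≤ K := by have := abs_nonneg C1; linarith
  refine ⟨2 * (2 * (C2 + 1) + 3 * K ^ 2 + 1), by nlinarith, ?_⟩
  intro E ε hE1 hε hε1 τ hτ0 hτ
  have hE0 : 0 < E := by linarith
  set X : ℝ := E / ε with hX
  have hX1 : 1 ≤ X := by rw [hX, le_div_iff₀ hε]; linarith
  set m : ℕ := ⌊2 * (|C1| * E) / ε⌋₊ + 1 with hmdef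
  have hm : 2 * (|C1| * E) / ε < m := by
    rw [hmdef]; push_cast; exact Nat.lt_floor_add_one _
  have hm' : (m : ℝ) ≤ 2 * (|C1| * E) / ε + 1 := by
    rw [hmdef]; push_cast
    have := Nat.floor_le (a := 2 * (|C1| * E) / ε) (by positivity)
    linarith
  have hmK : (m : ℝ) + 1 ≤ K * X := by
    have h1 : 2 * (|C1| * E) / ε = 2 * |C1| * X := by rw [hX]; ring
    rw [h1] at hm'
    rw [hK]
    nlinarith
  set k : ℕ := (m + 1) ^ 2 with hk
  have hk1 : 1 ≤ k := Nat.one_le_pow _ _ (Nat.succ_pos m)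
  have hsk : Real.sqrt k = m + 1 := by
    rw [hk]
    push_cast
    exact Real.sqrt_sq (by positivity)
  have hkK : (k : ℝ) ≤ K ^ 2 * X ^ 2 := by
    rw [hk]; push_cast
    have h0 : (0 : ℝ) ≤ (m : ℝ) + 1 := by positivity
    calc ((m : ℝ) + 1) ^ 2 ≤ (K * X) ^ 2 := pow_le_pow_left₀ h0 hmK 2
      _ = K ^ 2 * X ^ 2 := by ring
  have hm0 : (0 : ℝ) < m + 1 := by positivity
  have hT1 : |C1| * E / (m + 1) ≤ ε / 2 := by
    rw [div_le_iff₀ hm0]
    have := (div_lt_iff₀ hε).1 hm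
    nlinarith
  -- the bound for the influences
  set B : ℝ := (C2 + 1) * 12 ^ k * E with hB
  have hB0 : 0 < B := by positivity
  have h12 : (12 : ℝ) ^ k ≤ Real.exp (3 * K ^ 2 * X ^ 2) := by
    have h1 : (12 : ℝ) ≤ Real.exp 3 := by
      have h2 := Real.exp_one_gt_d9
      have h3 : Real.exp 3 = Real.exp 1 ^ 3 := by rw [← Real.exp_nat_mul]; norm_num
      rw [h3]
      calc (12 : ℝ) ≤ 2.7182818283 ^ 3 := by norm_num
        _ ≤ Real.exp 1 ^ 3 := pow_le_pow_left₀ (by norm_num) h2.le 3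
    calc (12 : ℝ) ^ k ≤ Real.exp 3 ^ k := pow_le_pow_left₀ (by norm_num) h1 k
      _ = Real.exp (k * 3) := by rw [← Real.exp_nat_mul]
      _ ≤ _ := Real.exp_le_exp.2 (by nlinarith)
  have hXX : X ≤ X ^ 2 := by nlinarith
  have hX2 : 1 ≤ X ^ 2 := by nlinarith
  have hsτ : Real.sqrt τ ≤ ε / (2 * B) := by
    have h1 : Real.sqrt τ ≤ Real.exp (-((2 * (C2 + 1) + 3 * K ^ 2 + 1) * X ^ 2)) := by
      rw [Real.sqrt_le_left (Real.exp_pos _).le]
      refine hτ.trans (le_of_eq ?_)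
      rw [← Real.exp_nat_mul]
      congr 1
      push_cast
      ring
    refine h1.trans ?_
    rw [Real.exp_neg, le_div_iff₀ (by positivity), inv_mul_le_iff₀ (Real.exp_pos _)]
    have h2 : 2 * B = 2 * (C2 + 1) * 12 ^ k * X * ε := by
      rw [hB, hX]; field_simp
    rw [h2]
    refine mul_le_mul_of_nonneg_right ?_ hε.le
    have h3 : 2 * (C2 + 1) ≤ Real.exp (2 * (C2 + 1) * X ^ 2) := by
      have := Real.add_one_le_exp (2 * (C2 + 1) * X ^ 2)
      nlinarith
    have h4 : X ≤ Real.exp (X ^ 2) := by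
      have := Real.add_one_le_exp (X ^ 2)
      linarith
    calc 2 * (C2 + 1) * 12 ^ k * X ≤
        Real.exp (2 * (C2 + 1) * X ^ 2) * Real.exp (3 * K ^ 2 * X ^ 2) * Real.exp (X ^ 2) := by
          gcongr
      _ = Real.exp ((2 * (C2 + 1) + 3 * K ^ 2 + 1) * X ^ 2) := by
          rw [← Real.exp_add, ← Real.exp_add]
          congr 1
          ring
  intro ι G _ _ _ _ grp f hf hE H hH
  have h1 : (∑ S : Finset ι, if k < #S then fc f S ^ 2 else 0) ≤ ε / 2 := by
    refine (hT ι f hf k hk1).trans (le_trans ?_ hT1)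
    rw [hsk]
    refine div_le_div_of_nonneg_right ?_ hm0.le
    have h0 : 0 ≤ Ex fun x => Real.sqrt #(piv f x) := Ex_nonneg fun _ => Real.sqrt_nonneg _
    calc C1 * (Ex fun x => Real.sqrt #(piv f x))
        ≤ |C1| * (Ex fun x => Real.sqrt #(piv f x)) :=
          mul_le_mul_of_nonneg_right (le_abs_self _) h0
      _ ≤ |C1| * E := mul_le_mul_of_nonneg_left
          ((H25.grad_le_energy grp f).trans hE) (abs_nonneg _)
  have h2 : (∑ S : Finset ι, if #S ≤ k then (#{i ∈ S | grp i ∈ H} : ℝ) * fc f S ^ 2 else 0) ≤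
      ε / 2 := by
    refine (hL ι G grp f hf k τ hτ0.le H fun g hg => (hH g hg).le).trans ?_
    have h3 : C2 * 12 ^ k * energy grp f ≤ B := by
      have h5 : C2 * 12 ^ k * energy grp f ≤ C2 * 12 ^ k * E :=
        mul_le_mul_of_nonneg_left hE (by positivity)
      have h6 : C2 * 12 ^ k * E ≤ (C2 + 1) * 12 ^ k * E := by gcongr; linarith
      exact h5.trans h6
    calc C2 * 12 ^ k * energy grp f * Real.sqrt τ ≤ B * (ε / (2 * B)) :=
          mul_le_mul h3 hsτ (Real.sqrt_nonneg _) hB0.le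
      _ = ε / 2 := by field_simp
  have h3 : Inf f {i | grp i ∈ H} ≤
      (∑ S : Finset ι, if k < #S then fc f S ^ 2 else 0) +
        ∑ S : Finset ι, if #S ≤ k then (#{i ∈ S | grp i ∈ H} : ℝ) * fc f S ^ 2 else 0 := by
    unfold Inf
    rw [← sum_add_distrib]
    refine sum_le_sum fun S _ => ?_
    have h0 : 0 ≤ fc f S ^ 2 := sq_nonneg _
    by_cases hS : k < #S
    · rw [if_pos hS, if_neg (not_le.2 hS), add_zero]
      split_ifs
      · exact h0
      · exact le_rfl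
    · rw [if_neg hS, if_pos (not_lt.1 hS), zero_add]
      split_ifs with hd
      · exact mul_nonneg (Nat.cast_nonneg _) h0
      · have h4 : 1 ≤ #{i ∈ S | grp i ∈ H} := by
          rw [not_disjoint_iff] at hd
          obtain ⟨i, hi, hi'⟩ := hd
          refine card_pos.2 ⟨i, mem_filter.2 ⟨hi, ?_⟩⟩
          simpa using hi'
        have h5 : (1 : ℝ) ≤ #{i ∈ S | grp i ∈ H} := by exact_mod_cast h4
        nlinarith
  linarith

end Vale.Agent.P325.K2.Q
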