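import Vale.Agent.P325.H111.K2.Sound
import Vale.Agent.P325.R4.H480.Struct
import Vale.Agent.P325.R4.H480.Pair

/-!
# The soundness of the reduction with explicit parameters
-/

namespace Vale.Agent.P325.K2.Q

open Finset Vale.Agent.Lib.PCP Vale.Agent.P342

/-- The number of legs. -/
def Nq (n : ℕ) : ℕ := (4 * n) ^ (4 * n + 1)

/-- The exponent of the soundness. -/
def Yq (n : ℕ) : ℕ := (4 * n) ^ (8 * n + 3)

/-- The exponent of the alphabet. -/
def Zq (n : ℕ) : ℕ := (4 * n) ^ (8 * n + 4)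

/-- The exponent of the number of label tuples. -/
def Uq (n : ℕ) : ℕ := (4 * n) ^ (4 * n ^ 2 + 9 * n + 4)

/-- The square root of the number of bits. -/
noncomputable def Lq (n : ℕ) : ℕ := 2 * ⌈Real.exp (8 * Uq n)⌉₊

theorem Lq_pos (n : ℕ) : 0 < Lq n := by
  unfold Lq
  have : 0 < ⌈Real.exp (8 * Uq n)⌉₊ := Nat.ceil_pos.2 (Real.exp_pos _)
  omega

instance instLq (n : ℕ) : NeZero (Lq n) := ⟨(Lq_pos n).ne'⟩

instance instNq (n : ℕ) [NeZero n] : NeZero (Nq n) :=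
  ⟨pow_ne_zero _ (Nat.mul_ne_zero (by norm_num) (NeZero.ne n))⟩

theorem card_lab_le {n r : ℕ} (hr : (r : ℝ) ≤ Real.exp (Zq n)) :
    (Fintype.card (Lab n (Nq n) r) : ℝ) ≤ Real.exp (Uq n) := by
  have h1 : Fintype.card (Lab n (Nq n) r) = r ^ (Nq n ^ n) := by
    rw [Fintype.card_fun, Fintype.card_fin, Fintype.card_fun, Fintype.card_fin, Fintype.card_fin]
  rw [h1]
  push_cast
  calc (r : ℝ) ^ (Nq n ^ n) ≤ Real.exp (Zq n) ^ (Nq n ^ n) :=
        pow_le_pow_left₀ (Nat.cast_nonneg _) hr _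
    _ = Real.exp (((Nq n ^ n : ℕ) : ℝ) * Zq n) := by rw [← Real.exp_nat_mul]
    _ = Real.exp (Uq n) := by
        congr 1
        rw [← Nat.cast_mul]
        congr 1
        unfold Nq Zq Uq
        rw [← pow_mul, ← pow_add]
        congr 1
        ring

/-- The contradiction, for parameters with all the properties that are used. -/
theorem sound_core {C0 C1 E1 τ τ' M t Em η : ℝ} {n N r L W J : ℕ} [NeZero n] [NeZero N] [NeZero r]
    [NeZero L]
    (hL : LipThm) (hM : MonoThm) (hSum : SumThm) (hP : PruneThm)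
    (hWin : WinThm) (hSig : SigThm) (hDec : DecodeThm)
    (hnuac : nu n L ≤ C0 / (L * Real.sqrt n)) (hC0 : 0 < C0) (hC1p : 0 < C1)
    (hE1 : E1 = C1 * C0 + 1) (hτ : 0 < τ) (hSτ' : StructAt (4 * E1) (1 / 2) τ)
    (hMdef : M = 16 / τ * (2 / τ)) (hn3 : 3 ≤ n) (hnM : 48 * M * E1 ≤ Real.sqrt n)
    (htp : 0 < t) (ht1 : t * (4 * n) ^ (2 * n) ≤ 1) (hN : (n : ℝ) / N ≤ t ^ 2 / 2)
    (hEm : Em = 64 * E1 / (t ^ 2 * τ)) (hτ' : 0 < τ') (hSτm' : StructAt Em (τ / 4) τ')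
    (hJ1 : 1 / τ' ≤ J) (hJ2 : 2 / τ ≤ J) (hηp : 0 < η) (hJη : (J : ℝ) ^ 2 * η ≤ t ^ 2 * τ / 64)
    (hW0 : (0 : ℝ) < W) (hW : 32 * M * C1 * C0 ≤ W) (hLt : 64 * n / τ ≤ L)
    (hL0 : ∀ (π : Win n N → Fin r → Fin r) (c : Win n N),
      Ex (fun a : Fin n → Fin L => pairs n L (adr π c) a) ≤ 1 / Real.sqrt n / L)
    (G : PG ℕ ℕ (Fin r) (Fin r)) (hG : G ≠ []) (hGs : G.Sound η)
    (A : Asg n N r) (hA : Odd' A) : C1 * nu n L < cost L W G A := by
  have hE1p : 0 < E1 := by rw [hE1]; positivity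
  have hMp : 0 < M := by rw [hMdef]; positivity
  have hn0 : 0 < n := by omega
  have hn1r : (1 : ℝ) ≤ n := by exact_mod_cast (by omega : 1 ≤ n)
  have hsq : (0 : ℝ) < Real.sqrt n := Real.sqrt_pos.2 (by exact_mod_cast hn0)
  have hsq1 : (1 : ℝ) ≤ Real.sqrt n := by
    rw [Real.one_le_sqrt]
    exact hn1r
  have hN1 : (1 : ℝ) ≤ N := by exact_mod_cast Nat.one_le_iff_ne_zero.2 (NeZero.ne N)
  have hEmp : 0 < Em := by rw [hEm]; positivity
  have hLpos : 0 < L := Nat.pos_of_ne_zero (NeZero.ne L)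
  have hLr : (0 : ℝ) < L := by exact_mod_cast hLpos
  by_contra hcon
  push Not at hcon
  have : Nonempty (Fin G.length) := ⟨⟨0, List.length_pos_iff.2 hG⟩⟩
  have hcost : cost L W G A ≤ C1 * C0 / (L * Real.sqrt n) := by
    refine hcon.trans ?_
    calc C1 * nu n L ≤ C1 * (C0 / (L * Real.sqrt n)) := mul_le_mul_of_nonneg_left hnuac hC1p.le
      _ = _ := by ring
  have hcost_eq : cost L W G A = (Ex fun z : ZZ G n N L => c1 A (eo G z.1) z.2.1 z.2.2) +
      W * Ex fun z : ZZ G n N L => ∑ k, ∑ j, c3 A (eo G z.1) z.2.1 z.2.2 k j := by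
    rw [cost, Ex_add, Ex_const_mul]
  have hc1 : 0 ≤ Ex fun z : ZZ G n N L => c1 A (eo G z.1) z.2.1 z.2.2 :=
    Ex_nonneg fun z => cost1_nonneg _ _ _
  have hc3 : 0 ≤ Ex fun z : ZZ G n N L => ∑ k, ∑ j, c3 A (eo G z.1) z.2.1 z.2.2 k j :=
    Ex_nonneg fun z => sum_nonneg fun k _ => sum_nonneg fun j _ => c3_nonneg A _ _ _ _ _
  set X3 := Ex fun z : ZZ G n N L => ∑ k, ∑ j, c3 A (eo G z.1) z.2.1 z.2.2 k j with hX3
  set X1 := Ex fun z : ZZ G n N L => c1 A (eo G z.1) z.2.1 z.2.2 with hX1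
  have hB0 : ∀ z : ZZ G n N L, 0 ≤ bet A (eo G z.1) z.2.1 z.2.2 := fun z =>
    add_nonneg (cost1_nonneg _ _ _) (pairs_nonneg _ _)
  set XB := Ex fun z : ZZ G n N L => bet A (eo G z.1) z.2.1 z.2.2 with hXB
  have hpairs : (Ex fun z : ZZ G n N L => pairs n L (adr (prj (eo G z.1)) z.2.1) z.2.2) ≤
      1 / Real.sqrt n / L := by
    rw [Ex_prod]
    refine (Ex_mono (g := fun _ => 1 / Real.sqrt n / L) fun p => ?_).trans (Ex_const _).le
    rw [Ex_prod]
    refine (Ex_mono (g := fun _ => 1 / Real.sqrt n / L) fun c => ?_).trans (Ex_const _).le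
    exact hL0 (prj (eo G p)) c
  have hXBle : XB ≤ E1 / (L * Real.sqrt n) := by
    have h1 : XB = X1 +
        Ex fun z : ZZ G n N L => pairs n L (adr (prj (eo G z.1)) z.2.1) z.2.2 := by
      rw [hXB, hX1, ← Ex_add]
      rfl
    have h2 : X1 ≤ C1 * C0 / (L * Real.sqrt n) := by
      have : 0 ≤ W * X3 := by positivity
      linarith
    have h3 : E1 / (L * Real.sqrt n) = C1 * C0 / (L * Real.sqrt n) + 1 / Real.sqrt n / L := by
      rw [hE1]
      field_simp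
    rw [h1, h3]
    exact add_le_add h2 hpairs
  have hXBE : (Ex fun z : ZZ G n N L => L * Real.sqrt n * bet A (eo G z.1) z.2.1 z.2.2) ≤
      E1 := by
    rw [Ex_const_mul]
    calc L * Real.sqrt n * XB ≤ L * Real.sqrt n * (E1 / (L * Real.sqrt n)) :=
          mul_le_mul_of_nonneg_left hXBle (by positivity)
      _ = E1 := by field_simp
  have hA1' := stepA A hG hSig hWin hE1p hSτ' hτ hA hXBE hB0
  have hA2 := stepB (t := t) A hG hWin hDec hτ hτ' hSτm' hJ1 hJ2 hGs htp hN hEmp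
    hηp.le hB0
  have hA3' := main_ineq (τ := τ) (t := t) A hG hP hL hM hSum hWin hτ ht1 hn0 hB0
  rw [← hX3, ← hXB, pr_zero, ← hMdef] at hA3'
  set PB := Pr (fun p : Win n N → Fin G.length => Bad (L := L) τ t A (eo G p)) with hPB
  -- first term
  have hT1 : 2 / τ * PB ≤ 1 / 8 := by
    have h1 : PB * (t ^ 2 / 2) ≤ t ^ 2 * τ / 32 := by
      refine hA2.trans ?_
      have h3 : (Ex fun z : ZZ G n N L =>
          L * Real.sqrt n * bet A (eo G z.1) z.2.1 z.2.2) / Em ≤ t ^ 2 * τ / 64 := by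
        rw [div_le_iff₀ hEmp, hEm]
        refine hXBE.trans (le_of_eq ?_)
        field_simp
      linarith
    have h4 : PB ≤ τ / 16 := by
      have h5 : PB * (t ^ 2 / 2) ≤ τ / 16 * (t ^ 2 / 2) := by
        refine h1.trans (le_of_eq ?_)
        ring
      exact le_of_mul_le_mul_right h5 (by positivity)
    calc 2 / τ * PB ≤ 2 / τ * (τ / 16) := mul_le_mul_of_nonneg_left h4 (by positivity)
      _ = 1 / 8 := by field_simp; norm_num
  -- second term
  have hT2 : 3 * L * (M * XB) ≤ 1 / 16 := by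
    have h1 : 3 * L * (M * XB) ≤ 3 * L * (M * (E1 / (L * Real.sqrt n))) :=
      mul_le_mul_of_nonneg_left (mul_le_mul_of_nonneg_left hXBle hMp.le) (by positivity)
    refine h1.trans ?_
    have h2 : 3 * L * (M * (E1 / (L * Real.sqrt n))) = 3 * M * E1 / Real.sqrt n := by
      field_simp
    rw [h2, div_le_iff₀ hsq]
    linarith
  -- third term
  have hT3 : 2 * L * (M / N * X3) ≤ 1 / 16 := by
    have h1 : W * X3 ≤ C1 * C0 / (L * Real.sqrt n) := by linarith
    have h2 : L * (W * X3) ≤ C1 * C0 := by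
      calc L * (W * X3) ≤ L * (C1 * C0 / (L * Real.sqrt n)) :=
            mul_le_mul_of_nonneg_left h1 hLr.le
        _ = C1 * C0 / Real.sqrt n := by field_simp
        _ ≤ C1 * C0 := div_le_self (by positivity) hsq1
    have h3 : W * (2 * L * (M / N * X3)) ≤ W * (1 / 16) := by
      calc W * (2 * L * (M / N * X3)) = 2 * M / N * (L * (W * X3)) := by ring
        _ ≤ 2 * M / N * (C1 * C0) := mul_le_mul_of_nonneg_left h2 (by positivity)
        _ ≤ 2 * M * (C1 * C0) := by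
            refine mul_le_mul_of_nonneg_right (div_le_self (by positivity) hN1) (by positivity)
        _ ≤ W * (1 / 16) := by linarith
    exact le_of_mul_le_mul_left h3 hW0
  -- fourth term
  have hT4 : 2 * L * (n * (2 / τ) * (1 / (L : ℝ) ^ n)) ≤ 1 / 16 := by
    have hL1 : (1 : ℝ) ≤ L := by exact_mod_cast hLpos
    have h1 : (L : ℝ) ^ 2 ≤ (L : ℝ) ^ n := pow_le_pow_right₀ hL1 (by omega)
    have h2 : 1 / (L : ℝ) ^ n ≤ 1 / (L : ℝ) ^ 2 :=
      one_div_le_one_div_of_le (by positivity) h1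
    calc 2 * L * (n * (2 / τ) * (1 / (L : ℝ) ^ n))
        ≤ 2 * L * (n * (2 / τ) * (1 / (L : ℝ) ^ 2)) := by gcongr
      _ = 4 * n / τ / L := by field_simp; norm_num
      _ ≤ 1 / 16 := by
          rw [div_le_iff₀ hLr]
          have h3 : 4 * n / τ = 64 * n / τ / 16 := by ring
          rw [h3]
          linarith
  have hfin : (3 : ℝ) / 4 ≤ 1 / 8 + (1 / 16 + (1 / 16 + 1 / 16)) := by
    refine hA1'.trans (hA3'.trans ?_)
    rw [mul_add (2 * (L : ℝ))]
    exact add_le_add hT1 (add_le_add hT2 (add_le_add hT3 hT4))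
  norm_num at hfin

end Vale.Agent.P325.K2.Q
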